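import Mathlib
import Vale.Agent.Lib.P248.helper37.Q2Defs

/-!
# P248, pool job Q2AB-J6: the cone over the `k`-negative part of the polar of a facet

For an anti-blocking body `A` and an interior point `z`, the cone with apex `-e_i / z_i` over the
part with `k` negative coordinates of the polar of the facet `sec A i` lies in the part with
`k + 1` negative coordinates of the polar of `A`, and has volume `|base| / ((n + 1) z_i)`.
-/

open MeasureTheory Set

namespace Vale.Agent.Lib.P248.H52

open Vale.Agent.Lib.P248.H37 Vale.Agent.Lib.P248.H37Q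

/-- The number of negative coordinates is a measurable function. -/
theorem measurable_negCount {m : ℕ} : Measurable (negCount : (Fin m → ℝ) → ℕ) := by
  have h : (negCount : (Fin m → ℝ) → ℕ) = fun y => ∑ j, if y j < 0 then 1 else 0 := by
    funext y
    unfold negCount
    rw [Finset.card_filter]
  rw [h]
  refine Finset.measurable_sum _ fun j _ => ?_
  exact Measurable.ite (measurableSet_lt (measurable_pi_apply j) measurable_const)
    measurable_const measurable_const

/-- The polar about a point is closed. -/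
theorem isClosed_polZ {m : ℕ} (B : Set (Fin m → ℝ)) (z : Fin m → ℝ) : IsClosed (polZ B z) := by
  have e : polZ B z = ⋂ x ∈ B, {y : Fin m → ℝ | ∑ i, (x i - z i) * y i ≤ 1} := by
    ext y
    constructor
    · intro hy
      exact Set.mem_iInter₂.mpr fun x hx => hy x hx
    · intro hy x hx
      exact Set.mem_iInter₂.mp hy x hx
  rw [e]
  exact isClosed_biInter fun x _ => isClosed_le
    (continuous_finsetSum _ fun i _ => continuous_const.mul (continuous_apply i)) continuous_const

/-- The part of the polar with exactly `k` negative coordinates is measurable. -/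
theorem measurableSet_polK {m : ℕ} (B : Set (Fin m → ℝ)) (z : Fin m → ℝ) (k : ℕ) :
    MeasurableSet (polK B z k) := by
  have e : polK B z k = polZ B z ∩ negCount ⁻¹' {k} := by
    ext y
    rfl
  rw [e]
  exact (isClosed_polZ B z).measurableSet.inter (measurable_negCount (measurableSet_singleton k))

/-- The integral of the profile of the cone. -/
theorem lintegral_profile (n : ℕ) {c : ℝ} (hc : 0 < c) :
    ∫⁻ t in Ioo (-1 / c) 0, ENNReal.ofReal ((1 + c * t) ^ n)
      = ENNReal.ofReal (1 / (((n : ℝ) + 1) * c)) := by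
  have hn : (0 : ℝ) < (n : ℝ) + 1 := by positivity
  have hle : -1 / c ≤ 0 := (div_neg_of_neg_of_pos (by norm_num) hc).le
  have hderiv : ∀ t ∈ uIcc (-1 / c) 0,
      HasDerivAt (fun t : ℝ => (1 + c * t) ^ (n + 1) / (((n : ℝ) + 1) * c))
        ((1 + c * t) ^ n) t := by
    intro t _
    have h1 : HasDerivAt (fun t : ℝ => 1 + c * t) c t := by
      have h0 := ((hasDerivAt_id t).const_mul c).const_add 1
      rw [mul_one] at h0
      exact h0
    have h2 := (h1.pow (n + 1)).div_const (((n : ℝ) + 1) * c)
    have e : ((n + 1 : ℕ) : ℝ) * (1 + c * t) ^ (n + 1 - 1) * c / (((n : ℝ) + 1) * c)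
        = (1 + c * t) ^ n := by
      rw [Nat.add_sub_cancel]
      push_cast
      field_simp
    rw [e] at h2
    exact h2
  have hint : IntervalIntegrable (fun t : ℝ => (1 + c * t) ^ n) volume (-1 / c) 0 :=
    Continuous.intervalIntegrable (by fun_prop) _ _
  have hFTC := intervalIntegral.integral_eq_sub_of_hasDerivAt hderiv hint
  have h0 : 1 + c * (-1 / c) = 0 := by
    field_simp
    ring
  have hval : ∫ t in (-1 / c)..0, (1 + c * t) ^ n = 1 / (((n : ℝ) + 1) * c) := by
    rw [hFTC, h0, mul_zero, add_zero, one_pow, zero_pow (Nat.succ_ne_zero n), zero_div, sub_zero]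
  rw [intervalIntegral.integral_of_le hle, integral_Ioc_eq_integral_Ioo] at hval
  rw [← hval]
  symm
  apply ofReal_integral_eq_lintegral_ofReal
  · have hcont : Continuous fun t : ℝ => (1 + c * t) ^ n := by fun_prop
    exact (hcont.integrableOn_Icc).mono_set Ioo_subset_Icc_self
  · refine (ae_restrict_iff' measurableSet_Ioo).mpr (Filter.Eventually.of_forall fun t ht => ?_)
    have h3 : c * (-1 / c) < c * t := mul_lt_mul_of_pos_left ht.1 hc
    have h4 : 0 ≤ 1 + c * t := by linarith
    exact pow_nonneg h4 n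

/-- The model of the cone in the coordinates (height, base point). -/
def pieceModel {n : ℕ} (S : Set (Fin n → ℝ)) (c : ℝ) : Set (ℝ × (Fin n → ℝ)) :=
  {p | p.1 ∈ Ioo (-1 / c) 0 ∧ (1 + c * p.1)⁻¹ • p.2 ∈ S}

theorem measurableSet_pieceModel {n : ℕ} {S : Set (Fin n → ℝ)} (hS : MeasurableSet S) (c : ℝ) :
    MeasurableSet (pieceModel S c) := by
  have hm : Measurable fun p : ℝ × (Fin n → ℝ) => (1 + c * p.1)⁻¹ • p.2 :=
    ((measurable_const.add (measurable_const.mul measurable_fst)).inv).smul measurable_snd
  exact (measurableSet_Ioo.preimage measurable_fst).inter (hm hS)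

/-- The volume of the model. -/
theorem vol_pieceModel_ge {n : ℕ} {S : Set (Fin n → ℝ)} (hS : MeasurableSet S) {c : ℝ}
    (hc : 0 < c) :
    ENNReal.ofReal (1 / (((n : ℝ) + 1) * c)) * volume S
      ≤ (volume : Measure (ℝ × (Fin n → ℝ))) (pieceModel S c) := by
  have hsec : ∀ t ∈ Ioo (-1 / c) 0, volume (Prod.mk t ⁻¹' pieceModel S c)
      = ENNReal.ofReal ((1 + c * t) ^ n) * volume S := by
    intro t ht
    have h3 : c * (-1 / c) < c * t := mul_lt_mul_of_pos_left ht.1 hc
    have h0 : c * (-1 / c) = -1 := by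
      field_simp
    have hlam : 0 < 1 + c * t := by linarith
    have e : Prod.mk t ⁻¹' pieceModel S c
        = (fun v : Fin n → ℝ => (1 + c * t)⁻¹ • v) ⁻¹' S := by
      ext v
      constructor
      · intro hv
        exact hv.2
      · intro hv
        exact ⟨ht, hv⟩
    rw [e, Measure.addHaar_preimage_smul volume (inv_ne_zero hlam.ne') S]
    congr 1
    rw [Module.finrank_fin_fun, inv_pow, inv_inv, abs_of_nonneg (pow_nonneg hlam.le n)]
  have hmeas : Measurable fun t : ℝ => ENNReal.ofReal ((1 + c * t) ^ n) := by fun_prop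
  calc ENNReal.ofReal (1 / (((n : ℝ) + 1) * c)) * volume S
      = (∫⁻ t in Ioo (-1 / c) 0, ENNReal.ofReal ((1 + c * t) ^ n)) * volume S := by
        rw [lintegral_profile n hc]
    _ = ∫⁻ t in Ioo (-1 / c) 0, ENNReal.ofReal ((1 + c * t) ^ n) * volume S := by
        rw [lintegral_mul_const _ hmeas]
    _ = ∫⁻ t in Ioo (-1 / c) 0, volume (Prod.mk t ⁻¹' pieceModel S c) :=
        setLIntegral_congr_fun measurableSet_Ioo fun t ht => (hsec t ht).symm
    _ ≤ ∫⁻ t, volume (Prod.mk t ⁻¹' pieceModel S c) := setLIntegral_le_lintegral _ _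
    _ = (volume : Measure (ℝ × (Fin n → ℝ))) (pieceModel S c) := by
        rw [Measure.volume_eq_prod]
        exact (Measure.prod_apply (measurableSet_pieceModel hS c)).symm

/-- The cone lies in the part of the polar with one more negative coordinate. -/
theorem piece_subset {n : ℕ} {A : Set (Fin (n + 1) → ℝ)} {z : Fin (n + 1) → ℝ} (h : Adm A z)
    (i : Fin (n + 1)) (k : ℕ) :
    (MeasurableEquiv.piFinSuccAbove (fun _ => ℝ) i) ⁻¹'
        pieceModel (polK (sec A i) (fun j => z (i.succAbove j)) k) (z i)
      ⊆ polK A z (k + 1) ∩ {y | y i < 0} := by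
  intro y hy
  have hz : 0 < z i := h.pos i
  have hy' : y i ∈ Ioo (-1 / z i) 0 ∧
      (1 + z i * y i)⁻¹ • (fun j => y (i.succAbove j))
        ∈ polK (sec A i) (fun j => z (i.succAbove j)) k := hy
  obtain ⟨ht, hw⟩ := hy'
  have h3 : z i * (-1 / z i) < z i * y i := mul_lt_mul_of_pos_left ht.1 hz
  have h0 : z i * (-1 / z i) = -1 := by
    field_simp
  have hlam : 0 < 1 + z i * y i := by linarith
  obtain ⟨hw1, hw2⟩ := hw
  have hwj : ∀ j, ((1 + z i * y i)⁻¹ • (fun j => y (i.succAbove j))) j
      = (1 + z i * y i)⁻¹ * y (i.succAbove j) := fun j => rfl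
  have hyj : ∀ j, y (i.succAbove j)
      = (1 + z i * y i) * ((1 + z i * y i)⁻¹ • (fun j => y (i.succAbove j))) j := by
    intro j
    rw [hwj j, ← mul_assoc, mul_inv_cancel₀ hlam.ne', one_mul]
  refine ⟨⟨?_, ?_⟩, ht.2⟩
  · intro x hx
    have hx' : (fun j => x (i.succAbove j)) ∈ sec A i := by
      show (Fin.insertNth i (0 : ℝ) (fun j => x (i.succAbove j)) : Fin (n + 1) → ℝ) ∈ A
      apply h.good.down x hx
      rw [Fin.forall_iff_succAbove i]
      refine ⟨?_, fun j => ?_⟩
      · rw [ins_same]
        exact ⟨le_refl _, h.good.nonneg x hx i⟩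
      · rw [ins_succ]
        exact ⟨h.good.nonneg x hx _, le_refl _⟩
    have hpol := hw1 _ hx'
    have hsum : ∑ j, (x j - z j) * y j
        = (x i - z i) * y i + (1 + z i * y i)
          * ∑ j, (x (i.succAbove j) - z (i.succAbove j))
            * ((1 + z i * y i)⁻¹ • (fun j => y (i.succAbove j))) j := by
      rw [Fin.sum_univ_succAbove _ i, Finset.mul_sum]
      congr 1
      refine Finset.sum_congr rfl fun j _ => ?_
      rw [hwj j]
      field_simp
    rw [hsum]
    have hxi : 0 ≤ x i := h.good.nonneg x hx i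
    have h5 : x i * y i ≤ 0 := mul_nonpos_of_nonneg_of_nonpos hxi ht.2.le
    have h6 : (1 + z i * y i)
        * ∑ j, (x (i.succAbove j) - z (i.succAbove j))
          * ((1 + z i * y i)⁻¹ • (fun j => y (i.succAbove j))) j ≤ (1 + z i * y i) * 1 :=
      mul_le_mul_of_nonneg_left hpol hlam.le
    have h7 : (x i - z i) * y i = x i * y i - z i * y i := by ring
    linarith
  · have hiff : ∀ j, (((1 + z i * y i)⁻¹ • (fun j => y (i.succAbove j))) j < 0
        ↔ y (i.succAbove j) < 0) := by
      intro j
      rw [hwj j]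
      constructor
      · intro hneg
        by_contra hnn
        have h8 := mul_nonneg (inv_pos.mpr hlam).le (not_lt.mp hnn)
        linarith
      · intro hneg
        exact mul_neg_of_pos_of_neg (inv_pos.mpr hlam) hneg
    have hk : ∑ j : Fin n, (if ((1 + z i * y i)⁻¹ • (fun j => y (i.succAbove j))) j < 0
        then 1 else 0) = k := by
      rw [← Finset.card_filter]
      exact hw2
    show (Finset.univ.filter (fun j => y j < 0)).card = k + 1
    rw [Finset.card_filter, Fin.sum_univ_succAbove _ i, if_pos ht.2, add_comm]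
    congr 1
    rw [← hk]
    exact Finset.sum_congr rfl fun j _ => if_congr (hiff j).symm rfl rfl

theorem polK_piece {n : ℕ} {A : Set (Fin (n + 1) → ℝ)} {z : Fin (n + 1) → ℝ} (h : Adm A z)
    (i : Fin (n + 1)) (k : ℕ) :
    ENNReal.ofReal (1 / (((n : ℝ) + 1) * z i)) *
        volume (polK (sec A i) (fun j => z (i.succAbove j)) k)
      ≤ volume (polK A z (k + 1) ∩ {y | y i < 0}) := by
  have hz : 0 < z i := h.pos i
  have hSm : MeasurableSet (polK (sec A i) (fun j => z (i.succAbove j)) k) :=
    measurableSet_polK _ _ k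
  calc ENNReal.ofReal (1 / (((n : ℝ) + 1) * z i)) *
        volume (polK (sec A i) (fun j => z (i.succAbove j)) k)
      ≤ (volume : Measure (ℝ × (Fin n → ℝ)))
          (pieceModel (polK (sec A i) (fun j => z (i.succAbove j)) k) (z i)) :=
        vol_pieceModel_ge hSm hz
    _ = volume ((MeasurableEquiv.piFinSuccAbove (fun _ => ℝ) i) ⁻¹'
          pieceModel (polK (sec A i) (fun j => z (i.succAbove j)) k) (z i)) :=
        ((volume_preserving_piFinSuccAbove (fun _ => ℝ) i).measure_preimage_equiv _).symm
    _ ≤ volume (polK A z (k + 1) ∩ {y | y i < 0}) := measure_mono (piece_subset h i k)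

end Vale.Agent.Lib.P248.H52
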